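import Mathlib

namespace Vale.Agent.Results.P355.EisensteinPhases

open scoped ComplexConjugate

theorem descent (d : ℤ) (hd : d % 4 = 2) :
    ∀ n : ℕ, ∀ a b c : ℤ, c.natAbs = n → a ^ 2 + 3 * b ^ 2 = d * c ^ 2 → c = 0 := by
  intro n
  induction n using Nat.strong_induction_on with
  | _ n ih =>
    intro a b c hn h
    by_contra hc
    obtain ⟨e, he⟩ : ∃ e, d = 4 * e + 2 := ⟨d / 4, by omega⟩
    have hc2 : Even c := by
      by_contra hodd
      obtain ⟨u, hu⟩ := Int.not_even_iff_odd.mp hodd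
      have h' : ((a : ZMod 4)) ^ 2 + 3 * (b : ZMod 4) ^ 2 = 2 := by
        have := congrArg (fun z : ℤ => (z : ZMod 4)) h
        push_cast at this
        rw [this, he, hu]
        push_cast
        ring_nf
        rw [show (4 : ZMod 4) = 0 from rfl, show (8 : ZMod 4) = 0 from rfl,
          show (16 : ZMod 4) = 0 from rfl]
        ring
      revert h'
      generalize (a : ZMod 4) = x
      generalize (b : ZMod 4) = y
      revert x y
      decide
    obtain ⟨u, hu⟩ := hc2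
    subst hu
    have h8 : ((a : ZMod 8)) ^ 2 + 3 * (b : ZMod 8) ^ 2 = 0 := by
      have := congrArg (fun z : ℤ => (z : ZMod 8)) h
      push_cast at this
      rw [this, he]
      push_cast
      ring_nf
      rw [show (8 : ZMod 8) = 0 from rfl, show (16 : ZMod 8) = 0 from rfl]
      ring
    have hpar : Even a ∧ Even b := by
      have key : ∀ x y : ZMod 8, x ^ 2 + 3 * y ^ 2 = 0 → x.val % 2 = 0 ∧ y.val % 2 = 0 := by decide
      obtain ⟨ha, hb⟩ := key _ _ h8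
      have va := ZMod.val_intCast (n := 8) a
      have vb := ZMod.val_intCast (n := 8) b
      constructor <;> rw [Int.even_iff] <;> omega
    obtain ⟨⟨a', rfl⟩, ⟨b', rfl⟩⟩ := hpar
    have := ih u.natAbs (by omega) a' b' u rfl (by linarith)
    omega

theorem descent_one (d : ℤ) (hd : d % 9 = 3 ∨ d % 9 = 6) :
    ∀ n : ℕ, ∀ a b c : ℤ, c.natAbs = n → a ^ 2 + 1 * b ^ 2 = d * c ^ 2 → c = 0 := by
  intro n
  induction n using Nat.strong_induction_on with
  | _ n ih =>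
    intro a b c hn h
    by_contra hc
    have key : ∀ x y : ZMod 3, x ^ 2 + y ^ 2 = 0 → x = 0 ∧ y = 0 := by decide
    have h3 : (a : ZMod 3) ^ 2 + (b : ZMod 3) ^ 2 = 0 := by
      have h3d : ((d : ℤ) : ZMod 3) = 0 := by
        rw [ZMod.intCast_zmod_eq_zero_iff_dvd]; push_cast; omega
      have := congrArg (fun z : ℤ => (z : ZMod 3)) h
      simpa [h3d] using this
    obtain ⟨ha, hb⟩ := key _ _ h3
    rw [ZMod.intCast_zmod_eq_zero_iff_dvd] at ha hb
    obtain ⟨a', rfl⟩ := ha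
    obtain ⟨b', rfl⟩ := hb
    push_cast at h
    obtain ⟨e, he, he3⟩ : ∃ e, d = 3 * e ∧ ¬ (3 : ℤ) ∣ e := ⟨d / 3, by omega, by omega⟩
    have hdiv : (3 : ℤ) ∣ e * c ^ 2 := ⟨a' ^ 2 + b' ^ 2, by rw [he] at h; nlinarith⟩
    have hc3 : (3 : ℤ) ∣ c := by
      rcases (Int.prime_three.dvd_mul).mp hdiv with h' | h'
      · exact absurd h' he3
      · exact Int.prime_three.dvd_of_dvd_pow h'
    obtain ⟨u, rfl⟩ := hc3
    have := ih u.natAbs (by omega) a' b' u rfl (by linarith)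
    omega

/-- The admissible pairs of a dimension and a field `ℚ(√-D)`. -/
theorem no_rat (d D : ℕ) (hd : (d % 4 = 2 ∧ D = 3) ∨ ((d % 9 = 3 ∨ d % 9 = 6) ∧ D = 1))
    (P Q : ℚ) : P ^ 2 + D * Q ^ 2 ≠ (d : ℚ) := by
  intro h
  have h1 : (P.num : ℚ) = P * P.den := (Rat.mul_den_eq_num P).symm
  have h2 : (Q.num : ℚ) = Q * Q.den := (Rat.mul_den_eq_num Q).symm
  have hq : ((P.num * Q.den) ^ 2 + D * (Q.num * P.den) ^ 2 : ℚ)
      = (d : ℚ) * ((P.den : ℚ) * Q.den) ^ 2 := by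
    rw [h1, h2, ← h]; ring
  have hz : (P.num * Q.den) ^ 2 + (D : ℤ) * (Q.num * P.den) ^ 2
      = (d : ℤ) * ((P.den : ℤ) * Q.den) ^ 2 := by exact_mod_cast hq
  have : ((P.den : ℤ) * Q.den) = 0 := by
    rcases hd with ⟨hd, rfl⟩ | ⟨hd, rfl⟩
    · exact descent d (by omega) _ _ _ _ rfl (by exact_mod_cast hz)
    · exact descent_one d (by omega) _ _ _ _ rfl (by exact_mod_cast hz)
  have hP := P.den_pos
  have hQ := Q.den_pos
  rcases Int.mul_eq_zero.mp this with h0 | h0 <;> omega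

theorem inner_shape {d D : ℕ} (u v : Fin d → ℂ)
    (hu : ∀ i, ∃ p q : ℚ, u i = (p : ℂ) + (q : ℂ) * (Real.sqrt D : ℂ) * Complex.I)
    (hv : ∀ i, ∃ p q : ℚ, v i = (p : ℂ) + (q : ℂ) * (Real.sqrt D : ℂ) * Complex.I) :
    ∃ P Q : ℚ, ∑ i, conj (u i) * v i = (P : ℂ) + (Q : ℂ) * (Real.sqrt D : ℂ) * Complex.I := by
  choose p q hp using hu
  choose r s hr using hv
  refine ⟨∑ i, (p i * r i + (D : ℚ) * (q i * s i)), ∑ i, (p i * s i - q i * r i), ?_⟩
  push_cast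
  rw [Finset.sum_mul, Finset.sum_mul, ← Finset.sum_add_distrib]
  refine Finset.sum_congr rfl fun i _ => ?_
  rw [hp i, hr i]
  have h3 : ((Real.sqrt D : ℝ) : ℂ) ^ 2 = (D : ℂ) := by
    rw [← Complex.ofReal_pow, Real.sq_sqrt (by positivity), Complex.ofReal_natCast]
  simp only [map_add, map_mul, map_ratCast, Complex.conj_ofReal, Complex.conj_I]
  linear_combination (-(q i : ℂ) * (s i : ℂ) * Complex.I ^ 2) * h3 +
    (-(D : ℂ) * (q i : ℂ) * (s i : ℂ)) * Complex.I_sq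

/-- Two bases of `ℂ^d`, `d ≡ 2 (mod 4)`, or `ℂ^d`, 3 exactly dividing d, whose scaled entries lie in `ℚ(√-3)`, resp. `ℚ(i)`, are never
mutually unbiased. -/
theorem result : ∀ d D : ℕ, (d % 4 = 2 ∧ D = 3) ∨ ((d % 9 = 3 ∨ d % 9 = 6) ∧ D = 1) →
    ∀ b c : OrthonormalBasis (Fin d) ℂ (EuclideanSpace ℂ (Fin d)),
      (∀ j i, ∃ p q : ℚ, (Real.sqrt d : ℂ) * b j i
          = (p : ℂ) + (q : ℂ) * (Real.sqrt D : ℂ) * Complex.I) →
      (∀ j i, ∃ p q : ℚ, (Real.sqrt d : ℂ) * c j i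
          = (p : ℂ) + (q : ℂ) * (Real.sqrt D : ℂ) * Complex.I) →
      ¬ ∀ j k, ‖inner ℂ (b j) (c k)‖ ^ 2 = 1 / (d : ℝ) := by
  intro d D hd b c hb hc hmu
  have hdpos : 0 < d := by omega
  set z : Fin d := ⟨0, hdpos⟩
  obtain ⟨P, Q, hPQ⟩ := inner_shape (D := D) (fun i => (Real.sqrt d : ℂ) * b z i)
    (fun i => (Real.sqrt d : ℂ) * c z i) (hb z) (hc z)
  have hin : ∑ i, conj ((Real.sqrt d : ℂ) * b z i) * ((Real.sqrt d : ℂ) * c z i)
      = (d : ℂ) * inner ℂ (b z) (c z) := by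
    rw [PiLp.inner_apply, Finset.mul_sum]
    refine Finset.sum_congr rfl fun i _ => ?_
    have hs : (Real.sqrt d : ℂ) * (Real.sqrt d : ℂ) = (d : ℂ) := by
      rw [← Complex.ofReal_mul, Real.mul_self_sqrt (by positivity), Complex.ofReal_natCast]
    simp only [map_mul, Complex.conj_ofReal, RCLike.inner_apply]
    rw [← hs]; ring
  rw [hin] at hPQ
  have hn := congrArg (fun w => Complex.normSq w) hPQ
  simp only [Complex.normSq_mul, Complex.normSq_natCast] at hn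
  rw [Complex.normSq_eq_norm_sq (inner ℂ (b z) (c z)), hmu z z] at hn
  have hr : Complex.normSq ((P : ℂ) + (Q : ℂ) * (Real.sqrt D : ℂ) * Complex.I)
      = (P : ℝ) ^ 2 + (D : ℝ) * (Q : ℝ) ^ 2 := by
    have hcast : ((P : ℂ) + (Q : ℂ) * (Real.sqrt D : ℂ) * Complex.I)
        = ((P : ℝ) : ℂ) + (((Q : ℝ) * Real.sqrt D : ℝ) : ℂ) * Complex.I := by push_cast; ring
    rw [hcast, Complex.normSq_add_mul_I, mul_pow, Real.sq_sqrt (by positivity : (0:ℝ) ≤ (D : ℝ))]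
    ring
  rw [hr] at hn
  have hdne : (d : ℝ) ≠ 0 := by positivity
  have h' : (P : ℝ) ^ 2 + (D : ℝ) * (Q : ℝ) ^ 2 = (d : ℝ) := by rw [← hn]; field_simp
  exact no_rat d D hd P Q (by exact_mod_cast h')

end Vale.Agent.Results.P355.EisensteinPhases
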